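import Vale.Agent.P038.H878.Rot

namespace Vale.Agent.P038.H878

open Finset Classical

noncomputable section

variable {V : Type*} [Fintype V]

/-- first out-neighbourhood -/
def N1 (r : V → V → Prop) (v : V) : Finset V := univ.filter fun u => r v u
/-- second out-neighbourhood -/
def N2 (r : V → V → Prop) (v : V) : Finset V :=
  univ.filter fun z => z ≠ v ∧ ¬ r v z ∧ ∃ u, r v u ∧ r u z

/-- counterexample -/
structure CE (r : V → V → Prop) : Prop where
  irr : ∀ a, ¬ r a a
  asy : ∀ a b, r a b → ¬ r b a
  bad : ∀ v, (N2 r v).card < (N1 r v).card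

/-- number of arcs -/
def arcs (r : V → V → Prop) : ℕ := (univ.filter fun p : V × V => r p.1 p.2).card

/-- closed adjacency -/
def Rr (r : V → V → Prop) (a b : V) : Prop := a = b ∨ r a b

/-- closed neighbourhood of a set -/
def cl (r : V → V → Prop) (X : Finset V) : Finset V :=
  univ.filter fun u => ∃ x ∈ X, Rr r x u

/-- 294's theorem, unweighted: in an arc-minimal counterexample, every set expands concavely -/
theorem G_lemma {r : V → V → Prop} (h : CE r) (hm : ∀ r' : V → V → Prop, CE r' → arcs r ≤ arcs r')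
    (X : Finset V) (hX : cl r X ≠ X) :
    X.card + (cl r (cl r X)).card < 2 * (cl r X).card := by
  set L := cl r X \ X with hL
  have hXc : X ⊆ cl r X := by
    intro x hx
    simp only [cl, mem_filter, mem_univ, true_and]
    exact ⟨x, hx, Or.inl rfl⟩
  have hLne : L.Nonempty := by
    rw [Finset.nonempty_iff_ne_empty, hL]
    intro h0
    exact hX (Finset.Subset.antisymm (Finset.sdiff_eq_empty_iff_subset.mp h0) hXc)
  -- d(T)
  let d : Finset V → ℤ := fun T => ((cl r T \ X).card : ℤ) - 2 * T.card
  by_contra hcon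
  push Not at hcon
  have hLX : (cl r (cl r X)).card = X.card + (cl r L \ X).card := by
    have : cl r (cl r X) = X ∪ (cl r L \ X) := by
      ext u
      simp only [Finset.mem_union, Finset.mem_sdiff]
      constructor
      · intro hu
        by_cases hux : u ∈ X
        · exact Or.inl hux
        · right
          refine ⟨?_, hux⟩
          simp only [cl, mem_filter, mem_univ, true_and] at hu ⊢
          obtain ⟨x, ⟨y, hy, hyx⟩, hxu⟩ := hu
          by_cases hxX : x ∈ X
          · refine ⟨u, ?_, Or.inl rfl⟩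
            simp only [hL, Finset.mem_sdiff, cl, mem_filter, mem_univ, true_and]
            exact ⟨⟨x, hxX, hxu⟩, hux⟩
          · refine ⟨x, ?_, hxu⟩
            simp only [hL, Finset.mem_sdiff, cl, mem_filter, mem_univ, true_and]
            exact ⟨⟨y, hy, hyx⟩, hxX⟩
      · rintro (hu | ⟨hu, _⟩)
        · simp only [cl, mem_filter, mem_univ, true_and]
          exact ⟨u, ⟨u, hu, Or.inl rfl⟩, Or.inl rfl⟩
        · simp only [cl, mem_filter, mem_univ, true_and] at hu ⊢
          obtain ⟨x, hx, hxu⟩ := hu
          simp only [hL, Finset.mem_sdiff, cl, mem_filter, mem_univ, true_and] at hx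
          exact ⟨x, hx.1, hxu⟩
    rw [this, Finset.card_union_of_disjoint Finset.disjoint_sdiff]
  have hLc := Finset.card_sdiff_add_card_eq_card hXc
  rw [← hL] at hLc
  have hdL : 0 ≤ d L := by
    simp only [d]
    omega
  have hd0 : d ∅ = 0 := by
    have : cl r (∅ : Finset V) = ∅ := by
      ext u; simp [cl]
    simp [d, this]
  -- minimal proper T
  obtain ⟨T, hT, hTmin⟩ := Finset.exists_min_image (L.powerset.erase L) d
    ⟨∅, by
      rw [Finset.mem_erase]
      exact ⟨hLne.ne_empty.symm, Finset.empty_mem_powerset _⟩⟩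
  rw [Finset.mem_erase, Finset.mem_powerset] at hT
  obtain ⟨hTne, hTL⟩ := hT
  have hT0 : d T ≤ 0 := by
    rw [← hd0]
    apply hTmin
    rw [Finset.mem_erase]
    exact ⟨hLne.ne_empty.symm, Finset.empty_mem_powerset _⟩
  have hTall : ∀ T' ⊆ L, d T ≤ d T' := by
    intro T' hT'
    by_cases e : T' = L
    · subst e; exact hT0.trans hdL
    · exact hTmin T' (by rw [Finset.mem_erase, Finset.mem_powerset]; exact ⟨e, hT'⟩)
  have hone : ∀ D ⊆ L, Disjoint T D → 2 * D.card ≤ (cl r D \ (cl r T ∪ X)).card := by
    intro D hD hdis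
    have h1 := hTall (T ∪ D) (Finset.union_subset hTL hD)
    have h2 : cl r (T ∪ D) \ X = (cl r T \ X) ∪ (cl r D \ (cl r T ∪ X)) := by
      ext u
      simp only [cl, Finset.mem_union, Finset.mem_sdiff, mem_filter, mem_univ, true_and]
      constructor
      · rintro ⟨⟨x, hx | hx, hxu⟩, hu⟩
        · exact Or.inl ⟨⟨x, hx, hxu⟩, hu⟩
        · by_cases hh : ∃ y ∈ T, Rr r y u
          · exact Or.inl ⟨hh, hu⟩
          · exact Or.inr ⟨⟨x, hx, hxu⟩, fun hc => hc.elim hh hu⟩
      · rintro (⟨⟨x, hx, hxu⟩, hu⟩ | ⟨⟨x, hx, hxu⟩, hu⟩)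
        · exact ⟨⟨x, Or.inl hx, hxu⟩, hu⟩
        · exact ⟨⟨x, Or.inr hx, hxu⟩, fun hc => hu (Or.inr hc)⟩
    have h3 : Disjoint (cl r T \ X) (cl r D \ (cl r T ∪ X)) := by
      rw [Finset.disjoint_left]
      intro u hu hu'
      exact (Finset.mem_sdiff.mp hu').2 (Finset.mem_union_left _ (Finset.mem_sdiff.mp hu).1)
    have h4 : (T ∪ D).card = T.card + D.card := Finset.card_union_of_disjoint hdis
    have h5 : (cl r (T ∪ D) \ X).card = (cl r T \ X).card + (cl r D \ (cl r T ∪ X)).card := by
      rw [h2, Finset.card_union_of_disjoint h3]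
    simp only [d] at h1
    omega
  -- the smaller graph
  let r' : V → V → Prop := fun y z => r y z ∧ ¬ (y ∈ X ∧ z ∉ X ∧ z ∉ T)
  have hr' : CE r' := by
    refine ⟨fun a ha => h.irr a ha.1, fun a b hab hba => h.asy a b hab.1 hba.1, ?_⟩
    intro v
    by_cases hv : v ∈ X
    · let D : Finset V := (N1 r v).filter fun z => z ∉ X ∧ z ∉ T
      let Ev : Finset V := cl r D \ (cl r T ∪ X)
      have hDL : D ⊆ L := by
        intro z hz
        simp only [D, N1, mem_filter, mem_univ, true_and] at hz
        rw [hL, Finset.mem_sdiff]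
        refine ⟨?_, hz.2.1⟩
        simp only [cl, mem_filter, mem_univ, true_and]
        exact ⟨v, hv, Or.inr hz.1⟩
      have hDT : Disjoint T D := by
        rw [Finset.disjoint_left]
        intro z hz hz'
        exact (Finset.mem_filter.mp hz').2.2 hz
      have hk := hone D hDL hDT
      have hN1 : (N1 r' v).card + D.card = (N1 r v).card := by
        rw [← Finset.card_union_of_disjoint]
        · congr 1
          ext z
          simp only [N1, r', D, Finset.mem_union, mem_filter, mem_univ, true_and]
          tauto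
        · rw [Finset.disjoint_left]
          intro z hz hz'
          simp only [N1, r', D, mem_filter, mem_univ, true_and] at hz hz'
          tauto
      have hsub1 : Ev ⊆ N2 r v ∪ D := by
        intro z hz
        simp only [Ev, Finset.mem_sdiff, Finset.mem_union, cl, mem_filter, mem_univ,
          true_and] at hz
        obtain ⟨⟨x, hx, hxz⟩, hn⟩ := hz
        have hzX : z ∉ X := fun h => hn (Or.inr h)
        have hzT : z ∉ T := fun h => hn (Or.inl ⟨z, h, Or.inl rfl⟩)
        have hx' := hx
        simp only [D, N1, mem_filter, mem_univ, true_and] at hx'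
        by_cases hvz : r v z
        · apply Finset.mem_union_right
          simp only [D, N1, mem_filter, mem_univ, true_and]
          exact ⟨hvz, hzX, hzT⟩
        · apply Finset.mem_union_left
          simp only [N2, mem_filter, mem_univ, true_and]
          refine ⟨fun e => hzX (e ▸ hv), hvz, x, hx'.1, ?_⟩
          rcases hxz with e | e
          · exact absurd (e ▸ hx'.1) hvz
          · exact e
      have hsub2 : N2 r' v ⊆ (N2 r v ∪ D) \ Ev := by
        intro z hz
        simp only [N2, r', mem_filter, mem_univ, true_and] at hz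
        obtain ⟨hzv, hnz, u, ⟨hvu, hnu⟩, huz, hnuz⟩ := hz
        rw [Finset.mem_sdiff]
        constructor
        · by_cases hvz : r v z
          · apply Finset.mem_union_right
            simp only [D, N1, mem_filter, mem_univ, true_and]
            by_contra hc
            exact hnz ⟨hvz, fun hcc => hc ⟨hvz, hcc.2.1, hcc.2.2⟩⟩
          · apply Finset.mem_union_left
            simp only [N2, mem_filter, mem_univ, true_and]
            exact ⟨hzv, hvz, u, hvu, huz⟩
        · intro hE
          simp only [Ev, Finset.mem_sdiff, Finset.mem_union, cl, mem_filter, mem_univ,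
            true_and] at hE
          obtain ⟨_, hn⟩ := hE
          have hzX : z ∉ X := fun h => hn (Or.inr h)
          have hzT : z ∉ T := fun h => hn (Or.inl ⟨z, h, Or.inl rfl⟩)
          -- u in X or T
          by_cases huX : u ∈ X
          · exact hnuz ⟨huX, hzX, hzT⟩
          · by_cases huT : u ∈ T
            · exact hn (Or.inl ⟨u, huT, Or.inr huz⟩)
            · exact hnu ⟨hv, huX, huT⟩
      have e1 := Finset.card_le_card hsub2
      have e2 := Finset.card_sdiff_add_card_eq_card hsub1
      have e3 := Finset.card_union_le (N2 r v) D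
      have e4 := h.bad v
      have e5 : Ev.card = (cl r D \ (cl r T ∪ X)).card := rfl
      omega
    · have e1 : N1 r' v = N1 r v := by
        ext z
        simp only [N1, r', mem_filter, mem_univ, true_and]
        exact ⟨fun h => h.1, fun h => ⟨h, fun hc => hv hc.1⟩⟩
      have e2 : N2 r' v ⊆ N2 r v := by
        intro z hz
        simp only [N2, r', mem_filter, mem_univ, true_and] at hz ⊢
        obtain ⟨hzv, hnz, u, ⟨hvu, _⟩, huz, _⟩ := hz
        exact ⟨hzv, fun hc => hnz ⟨hc, fun hcc => hv hcc.1⟩, u, hvu, huz⟩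
      rw [e1]
      exact (Finset.card_le_card e2).trans_lt (h.bad v)
  have hlt : arcs r' < arcs r := by
    apply Finset.card_lt_card
    rw [Finset.ssubset_iff_of_subset]
    · obtain ⟨z, hzL, hzT⟩ : ∃ z ∈ L, z ∉ T := by
        by_contra hc
        push Not at hc
        exact hTne (Finset.Subset.antisymm hTL hc)
      have hz := hzL
      rw [hL, Finset.mem_sdiff] at hz
      simp only [cl, mem_filter, mem_univ, true_and] at hz
      obtain ⟨⟨x, hx, hxz⟩, hzX⟩ := hz
      have hxz' : r x z := by
        rcases hxz with e | e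
        · exact absurd (e ▸ hx) hzX
        · exact e
      refine ⟨(x, z), by simp [hxz'], ?_⟩
      simp only [r', mem_filter, mem_univ, true_and]
      exact fun hc => hc.2 ⟨hx, hzX, hzT⟩
    · intro p hp
      simp only [r', mem_filter, mem_univ, true_and] at hp ⊢
      exact hp.1
  exact absurd (hm r' hr') (by omega)

theorem G_weak {r : V → V → Prop} (h : CE r) (hm : ∀ r' : V → V → Prop, CE r' → arcs r ≤ arcs r')
    (X : Finset V) : X.card + (cl r (cl r X)).card ≤ 2 * (cl r X).card := by
  by_cases hX : cl r X = X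
  · rw [hX, hX]; omega
  · exact (G_lemma h hm X hX).le

/-- cardinality by rows -/
theorem card_rows (B : Finset (V × V)) :
    B.card = ∑ a : V, (univ.filter fun x => (a, x) ∈ B).card := by
  rw [Finset.card_eq_sum_card_fiberwise (f := Prod.fst) (t := univ) (fun _ _ => by simp)]
  apply Finset.sum_congr rfl
  intro a _
  apply Finset.card_bij (fun p _ => p.2)
  · rintro ⟨c, d⟩ hp
    simp only [mem_filter] at hp
    obtain ⟨h1, rfl⟩ := hp
    simp [h1]
  · rintro ⟨c, d⟩ hp ⟨c', d'⟩ hp' he
    simp only [mem_filter] at hp hp'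
    obtain ⟨_, rfl⟩ := hp
    obtain ⟨_, rfl⟩ := hp'
    simp only at he
    rw [he]
  · intro x hx
    simp only [mem_filter, mem_univ, true_and] at hx
    exact ⟨(a, x), by simp [hx], rfl⟩

/-- cardinality by columns, complementary form -/
theorem card_cols (B : Finset (V × V)) :
    B.card + ∑ b : V, (univ.filter fun x => (x, b) ∉ B).card =
      Fintype.card V * Fintype.card V := by
  have h1 : B.card = ∑ b : V, (univ.filter fun x => (x, b) ∈ B).card := by
    rw [Finset.card_eq_sum_card_fiberwise (f := Prod.snd) (t := univ) (fun _ _ => by simp)]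
    apply Finset.sum_congr rfl
    intro a _
    apply Finset.card_bij (fun p _ => p.1)
    · rintro ⟨c, d⟩ hp
      simp only [mem_filter] at hp
      obtain ⟨h1, rfl⟩ := hp
      simp [h1]
    · rintro ⟨c, d⟩ hp ⟨c', d'⟩ hp' he
      simp only [mem_filter] at hp hp'
      obtain ⟨_, rfl⟩ := hp
      obtain ⟨_, rfl⟩ := hp'
      simp only at he
      rw [he]
    · intro x hx
      simp only [mem_filter, mem_univ, true_and] at hx
      exact ⟨(x, a), by simp [hx], rfl⟩
  rw [h1, ← Finset.sum_add_distrib]
  have : ∀ b : V, (univ.filter fun x => (x, b) ∈ B).card +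
      (univ.filter fun x => (x, b) ∉ B).card = Fintype.card V := by
    intro b
    rw [Finset.card_filter_add_card_filter_not]
    simp
  simp only [this]
  simp

theorem no_CE [Nonempty V] {r : V → V → Prop} (h : CE r)
    (hm : ∀ r' : V → V → Prop, CE r' → arcs r ≤ arcs r') : False := by
  set R := Rr r with hR
  have hrefl : ∀ a, R a a := fun a => Or.inl rfl
  have hanti : ∀ a b, R a b → R b a → a = b := by
    intro a b h1 h2
    rcases h1 with e | e
    · exact e
    · rcases h2 with e' | e'
      · exact e'.symm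
      · exact absurd e' (h.asy a b e)
  -- the set of feasible pairs is finite and nonempty
  let Fs : Finset (Finset (V × V) × Finset (V × V)) := univ.filter fun q => Feas R q.1 q.2
  have hne : Fs.Nonempty := by
    refine ⟨(univ.filter fun p : V × V => R p.1 p.2, univ.filter fun p : V × V => R p.1 p.2), ?_⟩
    simp only [Fs, mem_filter, mem_univ, true_and]
    refine ⟨fun a b hab => by simp [hab], Finset.Subset.refl _, fun a b hab hba => ?_⟩
    simp only [mem_filter, mem_univ, true_and] at hab
    exact hanti a b hab hba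
  obtain ⟨q0, hq0, hq0min⟩ := Finset.exists_min_image Fs (fun q => cO R q.1 q.2) hne
  obtain ⟨q1, hq1, hq1min⟩ := Finset.exists_min_image Fs (fun q => cI R q.1 q.2) hne
  have hf0 : Feas R q0.1 q0.2 := (Finset.mem_filter.mp hq0).2
  have hmin0 : ∀ B' U', Feas R B' U' → cO R q0.1 q0.2 ≤ cO R B' U' := by
    intro B' U' hf'
    exact hq0min (B', U') (by simp [Fs, hf'])
  obtain ⟨B2, U2, hf2, hc2⟩ := rot hf0 hmin0 hrefl
  have hle : cI R q1.1 q1.2 ≤ cI R B2 U2 := hq1min (B2, U2) (by simp [Fs, hf2])
  obtain ⟨B, U⟩ := q1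
  have hf : Feas R B U := (Finset.mem_filter.mp hq1).2
  simp only at hle
  -- L and M
  set U0 := U.filter fun p => p.1 ≠ p.2 with hU0
  set X := I R B with hX
  set L := E R X with hL
  set M0 := A R (J R U0) with hM0
  set Dg : Finset (V × V) := univ.filter fun p => p.1 = p.2 with hDg
  set M := M0 ∪ Dg with hM
  have hLB : L ⊆ B := by
    rintro ⟨a, b⟩ hp
    rw [hL, mem_E] at hp
    obtain ⟨x, hxb, hax⟩ := hp
    exact mem_I.mp hax b hxb
  have hDX : ∀ a, (a, a) ∈ X := fun a => mem_I.mpr fun y hy => hf.inc a y hy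
  have hU0M : U0 ⊆ M0 := by
    rintro ⟨a, b⟩ hp
    rw [hM0, mem_A]
    intro z hz
    exact mem_J.mpr ⟨a, hz, hp⟩
  have hJdiag : ∀ b, (b, b) ∉ J R U0 := by
    intro b hb
    obtain ⟨c, hbc, hc⟩ := mem_J.mp hb
    rw [hU0, Finset.mem_filter] at hc
    exact hc.2 (hf.rev c b hc.1 hbc)
  have hM0J : M0 ⊆ J R U0 := by
    rintro ⟨a, b⟩ hp
    exact mem_A.mp hp a (hrefl a)
  have hfLM : Feas R L M := by
    refine ⟨fun a b hab => mem_E.mpr ⟨a, hab, hDX a⟩, ?_, ?_⟩
    · rintro ⟨a, b⟩ hp
      have h1 := hf.sub (hLB hp)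
      by_cases e : a = b
      · exact Finset.mem_union_right _ (by simp [hDg, e])
      · exact Finset.mem_union_left _ (hU0M (Finset.mem_filter.mpr ⟨h1, e⟩))
    · intro a b hab hba
      rcases Finset.mem_union.mp hab with hh | hh
      · exact absurd (mem_A.mp hh b hba) (hJdiag b)
      · simpa [hDg] using hh
  have hO : cI R B U ≤ cO R L M := (hle.trans hc2).trans (hmin0 L M hfLM)
  -- card bounds
  have hn : Dg.card = Fintype.card V := by
    rw [hDg]
    have : (univ.filter fun p : V × V => p.1 = p.2) = univ.image fun a : V => (a, a) := by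
      ext ⟨a, b⟩
      simp only [mem_filter, mem_univ, true_and, mem_image, Prod.mk.injEq]
      constructor
      · intro e; exact ⟨a, rfl, e⟩
      · rintro ⟨c, rfl, rfl⟩; rfl
    rw [this, Finset.card_image_of_injective _ (fun a b e => (Prod.mk.inj e).1)]
    simp
  have b1 := Finset.card_le_card hLB
  have b2 : U.card ≤ M.card := by
    apply Finset.card_le_card
    rintro ⟨a, b⟩ hp
    by_cases e : a = b
    · exact Finset.mem_union_right _ (by simp [hDg, e])
    · exact Finset.mem_union_left _ (hU0M (Finset.mem_filter.mpr ⟨hp, e⟩))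
  have b3 : (J R U0).card + Fintype.card V ≤ (J R U).card := by
    rw [← hn, ← Finset.card_union_of_disjoint]
    · apply Finset.card_le_card
      apply Finset.union_subset
      · rintro ⟨a, b⟩ hp
        obtain ⟨y, hy, hyb⟩ := mem_J.mp hp
        exact mem_J.mpr ⟨y, hy, (Finset.mem_filter.mp hyb).1⟩
      · rintro ⟨a, b⟩ hp
        have e : a = b := by simpa [hDg] using hp
        subst e
        exact mem_J.mpr ⟨a, hrefl a, hf.sub (hf.inc a a (hrefl a))⟩
    · rw [Finset.disjoint_left]
      rintro ⟨a, b⟩ hp hp'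
      have e : a = b := by simpa [hDg] using hp'
      subst e
      exact hJdiag a hp
  have b4 : (A R M0).card + Fintype.card V ≤ (A R M).card := by
    rw [← hn, ← Finset.card_union_of_disjoint]
    · apply Finset.card_le_card
      apply Finset.union_subset
      · rintro ⟨a, b⟩ hp
        exact mem_A.mpr fun z hz => Finset.mem_union_left _ (mem_A.mp hp z hz)
      · rintro ⟨a, b⟩ hp
        have e : a = b := by simpa [hDg] using hp
        subst e
        exact mem_A.mpr fun z hz => hfLM.sub (hfLM.inc z a hz)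
    · rw [Finset.disjoint_left]
      rintro ⟨a, b⟩ hp hp'
      have e : a = b := by simpa [hDg] using hp'
      subst e
      exact hJdiag a (hM0J (mem_A.mp hp a (hrefl a)))
  have b5 : M.card ≤ M0.card + Fintype.card V := by
    rw [← hn]; exact Finset.card_union_le _ _
  -- row sums
  let Xr : V → Finset V := fun a => univ.filter fun x => (a, x) ∈ X
  have hrow1 : ∀ a, (univ.filter fun x => (a, x) ∈ L) = cl r (Xr a) := by
    intro a
    ext u
    simp only [cl, Xr, mem_filter, mem_univ, true_and]
    rw [hL, mem_E]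
    exact ⟨fun ⟨x, h1, h2⟩ => ⟨x, h2, h1⟩, fun ⟨x, h1, h2⟩ => ⟨x, h2, h1⟩⟩
  have hrow2 : ∀ a, (univ.filter fun x => (a, x) ∈ E R L) = cl r (cl r (Xr a)) := by
    intro a
    ext u
    rw [← hrow1 a]
    simp only [cl, mem_filter, mem_univ, true_and]
    rw [mem_E]
    exact ⟨fun ⟨x, h1, h2⟩ => ⟨x, h2, h1⟩, fun ⟨x, h1, h2⟩ => ⟨x, h2, h1⟩⟩
  let Yc : V → Finset V := fun b => univ.filter fun y => (y, b) ∉ J R U0
  have hcol1 : ∀ b, (univ.filter fun y => (y, b) ∉ M0) = cl r (Yc b) := by
    intro b
    ext u
    simp only [cl, Yc, mem_filter, mem_univ, true_and]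
    rw [hM0, mem_A]
    push Not
    exact ⟨fun ⟨x, h1, h2⟩ => ⟨x, h2, h1⟩, fun ⟨x, h1, h2⟩ => ⟨x, h2, h1⟩⟩
  have hcol2 : ∀ b, (univ.filter fun y => (y, b) ∉ A R M0) = cl r (cl r (Yc b)) := by
    intro b
    ext u
    rw [← hcol1 b]
    simp only [cl, mem_filter, mem_univ, true_and]
    rw [mem_A]
    push Not
    exact ⟨fun ⟨x, h1, h2⟩ => ⟨x, h2, h1⟩, fun ⟨x, h1, h2⟩ => ⟨x, h2, h1⟩⟩
  have s1 : X.card = ∑ a : V, (Xr a).card := card_rows X
  have s2 : L.card = ∑ a : V, (cl r (Xr a)).card := by
    rw [card_rows L]; exact Finset.sum_congr rfl fun a _ => by rw [hrow1 a]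
  have s3 : (E R L).card = ∑ a : V, (cl r (cl r (Xr a))).card := by
    rw [card_rows (E R L)]; exact Finset.sum_congr rfl fun a _ => by rw [hrow2 a]
  have t1 : (J R U0).card + ∑ b : V, (Yc b).card = Fintype.card V * Fintype.card V :=
    card_cols (J R U0)
  have t2 : M0.card + ∑ b : V, (cl r (Yc b)).card = Fintype.card V * Fintype.card V := by
    rw [← card_cols M0]; congr 1; exact Finset.sum_congr rfl fun a _ => by rw [hcol1 a]
  have t3 : (A R M0).card + ∑ b : V, (cl r (cl r (Yc b))).card =
      Fintype.card V * Fintype.card V := by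
    rw [← card_cols (A R M0)]; congr 1; exact Finset.sum_congr rfl fun a _ => by rw [hcol2 a]
  have g2 : ∑ b : V, (Yc b).card + ∑ b : V, (cl r (cl r (Yc b))).card ≤
      2 * ∑ b : V, (cl r (Yc b)).card := by
    rw [← Finset.sum_add_distrib, Finset.mul_sum]
    exact Finset.sum_le_sum fun b _ => G_weak h hm (Yc b)
  -- strict row
  obtain ⟨a0, ha0⟩ : ∃ a, cl r (Xr a) ≠ Xr a := by
    by_contra hcon
    push Not at hcon
    have hclosed : ∀ a c d, c ∈ Xr a → r c d → d ∈ Xr a := by
      intro a c d hc hcd
      rw [← hcon a]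
      simp only [cl, mem_filter, mem_univ, true_and]
      exact ⟨c, hc, Or.inr hcd⟩
    have hself : ∀ a, a ∈ Xr a := fun a => by simp [Xr, hDX a]
    have hnot : ∀ a b, r a b → a ∉ Xr b := by
      intro a b hab ha
      have h1 : (b, a) ∈ X := by simpa [Xr] using ha
      have h2 : (b, a) ∈ U := hf.sub (mem_I.mp h1 a (hrefl a))
      have h3 := hf.rev b a h2 (Or.inr hab)
      subst h3
      exact h.irr b hab
    let Z : V → Finset V := fun a => univ.filter fun x =>
      ∀ C : Finset V, a ∈ C → (∀ c ∈ C, ∀ d, r c d → d ∈ C) → x ∈ C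
    obtain ⟨a, _, hamin⟩ := Finset.exists_min_image (univ : Finset V) (fun a => (Z a).card)
      Finset.univ_nonempty
    have hpos : 0 < (N1 r a).card := lt_of_le_of_lt (Nat.zero_le _) (h.bad a)
    obtain ⟨b, hb⟩ := Finset.card_pos.mp hpos
    have hab : r a b := by simpa [N1] using hb
    have hsub : Z b ⊆ Z a := by
      intro x hx
      simp only [Z, mem_filter, mem_univ, true_and] at hx ⊢
      intro C haC hC
      exact hx C (hC a haC b hab) hC
    have heq : Z b = Z a := Finset.eq_of_subset_of_card_le hsub (hamin b (mem_univ _))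
    have haZ : a ∈ Z a := by
      simp only [Z, mem_filter, mem_univ, true_and]
      exact fun C hC _ => hC
    rw [← heq] at haZ
    simp only [Z, mem_filter, mem_univ, true_and] at haZ
    exact hnot a b hab (haZ (Xr b) (hself b) (fun c hc d hcd => hclosed b c d hc hcd))
  have g1 : ∑ a : V, (Xr a).card + ∑ a : V, (cl r (cl r (Xr a))).card <
      2 * ∑ a : V, (cl r (Xr a)).card := by
    rw [← Finset.sum_add_distrib, Finset.mul_sum]
    exact Finset.sum_lt_sum (fun b _ => G_weak h hm (Xr b)) ⟨a0, mem_univ _, G_lemma h hm _ ha0⟩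
  simp only [cI, cO] at hO
  rw [← hX] at hO
  omega

/-- Seymour's second neighbourhood conjecture. -/
theorem snc [Nonempty V] (r : V → V → Prop) (irr : ∀ a, ¬ r a a)
    (asy : ∀ a b, r a b → ¬ r b a) : ∃ v, (N1 r v).card ≤ (N2 r v).card := by
  by_contra hcon
  push Not at hcon
  have hr : CE r := ⟨irr, asy, hcon⟩
  obtain ⟨r0, hr0, hmin⟩ := Finset.exists_min_image
    ((univ : Finset (V → V → Prop)).filter fun r => CE r) arcs ⟨r, by simp [hr]⟩
  exact no_CE (Finset.mem_filter.mp hr0).2 (fun r' hr' => hmin r' (by simp [hr']))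

end

end Vale.Agent.P038.H878
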