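import Mathlib

namespace Vale.Agent.P038.H878

open Finset Classical

noncomputable section

variable {V : Type*} [Fintype V]

/-- A generic matrix supported on a relation. -/
theorem generic (R : V → V → Prop) :
    ∃ P : V → V → ℚ, (∀ u x, ¬ R x u → P u x = 0) ∧
      ∀ (S : Finset V) (φ : V → V), Set.InjOn φ S → (∀ x ∈ S, R x (φ x)) →
        ∀ f : V → ℚ, (∀ x ∈ S, ∑ y ∈ S, P (φ x) y * f y = 0) → ∀ x ∈ S, f x = 0 := by
  classical
  let pol : Finset V × (V → V) → MvPolynomial (V × V) ℚ := fun q =>
    Matrix.det (Matrix.of fun i j : q.1 =>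
      if R j.1 (q.2 i.1) then (MvPolynomial.X (q.2 i.1, j.1) : MvPolynomial (V × V) ℚ) else 0)
  let good : Finset (Finset V × (V → V)) :=
    univ.filter fun q => Set.InjOn q.2 q.1 ∧ ∀ x ∈ q.1, R x (q.2 x)
  have hne : ∀ q ∈ good, pol q ≠ 0 := by
    intro q hq h0
    obtain ⟨hinj, hR⟩ := (mem_filter.mp hq).2
    have h1 : MvPolynomial.eval (fun p : V × V => if p.1 = q.2 p.2 then (1:ℚ) else 0) (pol q) = 0 := by
      rw [h0]; simp
    simp only [pol] at h1
    rw [RingHom.map_det] at h1
    have : (MvPolynomial.eval (fun p : V × V => if p.1 = q.2 p.2 then (1:ℚ) else 0)).mapMatrix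
        (Matrix.of fun i j : q.1 =>
          if R j.1 (q.2 i.1) then (MvPolynomial.X (q.2 i.1, j.1) : MvPolynomial (V × V) ℚ) else 0) = 1 := by
      ext i j
      simp only [RingHom.mapMatrix_apply, Matrix.map_apply, Matrix.of_apply, Matrix.one_apply]
      by_cases hij : i = j
      · subst hij
        simp [hR i.1 i.2]
      · have : q.2 i.1 ≠ q.2 j.1 := fun h => hij (Subtype.ext (hinj i.2 j.2 h))
        split_ifs <;> simp [this]
    rw [this] at h1
    simp at h1
  have hprod : (∏ q ∈ good, pol q) ≠ 0 := Finset.prod_ne_zero_iff.mpr hne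
  obtain ⟨c, hc⟩ : ∃ c : V × V → ℚ, MvPolynomial.eval c (∏ q ∈ good, pol q) ≠ 0 := by
    by_contra hcon
    push_neg at hcon
    exact hprod (MvPolynomial.funext (fun x => by rw [hcon x]; simp))
  refine ⟨fun u x => if R x u then c (u, x) else 0, fun u x h => by simp [h], ?_⟩
  intro S φ hinj hR f hf
  have hmem : (S, φ) ∈ good := by
    simp only [good, mem_filter, mem_univ, true_and]
    exact ⟨hinj, hR⟩
  have hcq : MvPolynomial.eval c (pol (S, φ)) ≠ 0 := by
    rw [map_prod] at hc
    exact Finset.prod_ne_zero_iff.mp hc _ hmem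
  simp only [pol] at hcq
  rw [RingHom.map_det] at hcq
  have hker := Matrix.eq_zero_of_mulVec_eq_zero hcq (v := fun j : S => f j.1) (by
    ext i
    simp only [Matrix.mulVec, dotProduct, RingHom.mapMatrix_apply, Matrix.map_apply,
      Matrix.of_apply, Pi.zero_apply]
    rw [← hf i.1 i.2, ← Finset.sum_coe_sort S]
    apply Finset.sum_congr rfl
    intro j _
    by_cases h : R j.1 (φ i.1) <;> simp [h])
  intro x hx
  exact congrFun hker ⟨x, hx⟩

/-- the abstract counting inequality -/
theorem key (R : V → V → Prop) (A G H E : Finset (V × V))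
    (h1 : ∀ a, ∀ S : Finset V, (∀ x ∈ S, (a, x) ∈ A) →
      S.card ≤ (univ.filter fun u => (∃ x ∈ S, R x u) ∧ (a, u) ∈ H).card)
    (h2 : ∀ u, ∀ S : Finset V, (∀ a ∈ S, (a, u) ∈ E) →
      S.card ≤ (univ.filter fun a => (∃ a' ∈ S, R a' a) ∧ (a, u) ∈ H).card)
    (h3 : ∀ a x a' u, (a, x) ∈ A → R a' a → R x u → (a', u) ∈ E → (a', x) ∈ G ∧ (a, u) ∈ H) :
    E.card + A.card ≤ G.card + H.card := by
  classical
  obtain ⟨P, hP0, hP⟩ := generic R
  let M1 : Matrix H A ℚ := Matrix.of fun h p => if h.1.1 = p.1.1 then P h.1.2 p.1.2 else 0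
  let M2 : Matrix E H ℚ := Matrix.of fun e h => if e.1.2 = h.1.2 then P h.1.1 e.1.1 else 0
  let M3 : Matrix G A ℚ := Matrix.of fun g p => if g.1.2 = p.1.2 then P p.1.1 g.1.1 else 0
  let M4 : Matrix E G ℚ := Matrix.of fun e g => if e.1.1 = g.1.1 then P e.1.2 g.1.2 else 0
  have hcomm : M2 * M1 = M4 * M3 := by
    ext e p
    simp only [Matrix.mul_apply, M1, M2, M3, M4, Matrix.of_apply]
    have hL : (∑ h : H, (if e.1.2 = h.1.2 then P h.1.1 e.1.1 else 0) *
        (if h.1.1 = p.1.1 then P h.1.2 p.1.2 else 0)) =
        if (p.1.1, e.1.2) ∈ H then P p.1.1 e.1.1 * P e.1.2 p.1.2 else 0 := by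
      split_ifs with hm
      · rw [Finset.sum_eq_single (⟨(p.1.1, e.1.2), hm⟩ : H)]
        · simp
        · intro b _ hb
          by_cases h1 : e.1.2 = b.1.2
          · by_cases h2 : b.1.1 = p.1.1
            · exact absurd (Subtype.ext (Prod.ext h2 h1.symm)) hb
            · simp [h2]
          · simp [h1]
        · intro h; exact absurd (mem_univ _) h
      · apply Finset.sum_eq_zero
        intro b _
        by_cases h1 : e.1.2 = b.1.2
        · by_cases h2 : b.1.1 = p.1.1
          · exfalso; apply hm
            have : (p.1.1, e.1.2) = b.1 := Prod.ext h2.symm h1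
            rw [this]; exact b.2
          · simp [h2]
        · simp [h1]
    have hRr : (∑ g : G, (if e.1.1 = g.1.1 then P e.1.2 g.1.2 else 0) *
        (if g.1.2 = p.1.2 then P p.1.1 g.1.1 else 0)) =
        if (e.1.1, p.1.2) ∈ G then P e.1.2 p.1.2 * P p.1.1 e.1.1 else 0 := by
      split_ifs with hm
      · rw [Finset.sum_eq_single (⟨(e.1.1, p.1.2), hm⟩ : G)]
        · simp
        · intro b _ hb
          by_cases h1 : e.1.1 = b.1.1
          · by_cases h2 : b.1.2 = p.1.2
            · exact absurd (Subtype.ext (Prod.ext h1.symm h2)) hb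
            · simp [h2]
          · simp [h1]
        · intro h; exact absurd (mem_univ _) h
      · apply Finset.sum_eq_zero
        intro b _
        by_cases h1 : e.1.1 = b.1.1
        · by_cases h2 : b.1.2 = p.1.2
          · exfalso; apply hm
            have : (e.1.1, p.1.2) = b.1 := Prod.ext h1 h2.symm
            rw [this]; exact b.2
          · simp [h2]
        · simp [h1]
    rw [hL, hRr]
    by_cases ha : R e.1.1 p.1.1
    · by_cases hb : R p.1.2 e.1.2
      · obtain ⟨hg, hh⟩ := h3 p.1.1 p.1.2 e.1.1 e.1.2 p.2 ha hb e.2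
        rw [if_pos hh, if_pos hg, mul_comm]
      · have := hP0 e.1.2 p.1.2 hb
        simp [this]
    · have := hP0 p.1.1 e.1.1 ha
      simp [this]
  have hinj1 : Function.Injective M1.mulVecLin := by
    rw [← LinearMap.ker_eq_bot, LinearMap.ker_eq_bot']
    intro f hf
    ext p
    -- block a
    set a := p.1.1 with ha
    let S : Finset V := univ.filter fun x => (a, x) ∈ A
    have hall : ∃ g : {x // x ∈ S} → V, Function.Injective g ∧
        ∀ x, g x ∈ univ.filter fun u => R x.1 u ∧ (a, u) ∈ H := by
      rw [← Finset.all_card_le_biUnion_card_iff_exists_injective]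
      intro s
      have := h1 a (s.map (Function.Embedding.subtype _)) (by
        intro x hx
        simp only [mem_map, Function.Embedding.coe_subtype] at hx
        obtain ⟨y, _, rfl⟩ := hx
        exact (mem_filter.mp y.2).2)
      rw [Finset.card_map] at this
      refine this.trans (Finset.card_le_card ?_)
      intro u hu
      simp only [mem_filter, mem_univ, true_and, mem_map, Function.Embedding.coe_subtype,
        mem_biUnion] at hu ⊢
      obtain ⟨⟨x, ⟨y, hy, rfl⟩, hxu⟩, hH⟩ := hu
      exact ⟨y, hy, hxu, hH⟩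
    obtain ⟨g, hg, hgt⟩ := hall
    let φ : V → V := fun x => if hx : x ∈ S then g ⟨x, hx⟩ else x
    have hφ : ∀ x (hx : x ∈ S), φ x = g ⟨x, hx⟩ := fun x hx => by simp [φ, hx]
    have hinj : Set.InjOn φ S := by
      intro x hx y hy hxy
      rw [hφ x hx, hφ y hy] at hxy
      exact congrArg Subtype.val (hg hxy)
    let F : V → ℚ := fun x => if hx : (a, x) ∈ A then f ⟨(a, x), hx⟩ else 0
    have hF := hP S φ hinj (fun x hx => by
      rw [hφ x hx]; exact (mem_filter.mp (hgt ⟨x, hx⟩)).2.1) F (by
      intro x hx
      have hHmem : (a, φ x) ∈ H := by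
        rw [hφ x hx]; exact (mem_filter.mp (hgt ⟨x, hx⟩)).2.2
      have h0 := congrFun hf ⟨(a, φ x), hHmem⟩
      simp only [Matrix.mulVecLin_apply, Matrix.mulVec, dotProduct, M1, Matrix.of_apply,
        Pi.zero_apply] at h0
      rw [← h0]
      symm
      rw [← Finset.sum_filter_add_sum_filter_not univ (fun q : A => a = q.1.1)]
      rw [Finset.sum_eq_zero (s := univ.filter fun q : A => ¬ a = q.1.1) (by
        intro q hq
        rw [if_neg (mem_filter.mp hq).2, zero_mul]), add_zero]
      refine Finset.sum_bij' (fun q _ => q.1.2)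
        (fun y hy => ⟨(a, y), (mem_filter.mp hy).2⟩) ?_ ?_ ?_ ?_ ?_
      · intro q hq
        have : a = q.1.1 := (mem_filter.mp hq).2
        simp only [S, mem_filter, mem_univ, true_and]
        have h : (a, q.1.2) = q.1 := Prod.ext this rfl
        rw [h]; exact q.2
      · intro y hy
        simp
      · intro q hq
        have : a = q.1.1 := (mem_filter.mp hq).2
        exact Subtype.ext (Prod.ext this rfl)
      · intro y hy; rfl
      · intro q hq
        have : a = q.1.1 := (mem_filter.mp hq).2
        rw [if_pos this]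
        have h : (a, q.1.2) = q.1 := Prod.ext this rfl
        have hq2 : (a, q.1.2) ∈ A := by rw [h]; exact q.2
        simp only [F, dif_pos hq2]
        congr 2
        exact Subtype.ext h.symm)
    have hp : p.1.2 ∈ S := by
      simp only [S, mem_filter, mem_univ, true_and, ha]
      exact p.2
    have := hF p.1.2 hp
    simp only [F] at this
    rw [dif_pos (show (a, p.1.2) ∈ A from p.2)] at this
    exact this
  have hinj2 : Function.Injective M2.transpose.mulVecLin := by
    rw [← LinearMap.ker_eq_bot, LinearMap.ker_eq_bot']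
    intro f hf
    ext p
    set a := p.1.2 with ha
    let S : Finset V := univ.filter fun x => (x, a) ∈ E
    have hall : ∃ g : {x // x ∈ S} → V, Function.Injective g ∧
        ∀ x, g x ∈ univ.filter fun u => R x.1 u ∧ (u, a) ∈ H := by
      rw [← Finset.all_card_le_biUnion_card_iff_exists_injective]
      intro s
      have := h2 a (s.map (Function.Embedding.subtype _)) (by
        intro x hx
        simp only [mem_map, Function.Embedding.coe_subtype] at hx
        obtain ⟨y, _, rfl⟩ := hx
        exact (mem_filter.mp y.2).2)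
      rw [Finset.card_map] at this
      refine this.trans (Finset.card_le_card ?_)
      intro u hu
      simp only [mem_filter, mem_univ, true_and, mem_map, Function.Embedding.coe_subtype,
        mem_biUnion] at hu ⊢
      obtain ⟨⟨x, ⟨y, hy, rfl⟩, hxu⟩, hH⟩ := hu
      exact ⟨y, hy, hxu, hH⟩
    obtain ⟨g, hg, hgt⟩ := hall
    let φ : V → V := fun x => if hx : x ∈ S then g ⟨x, hx⟩ else x
    have hφ : ∀ x (hx : x ∈ S), φ x = g ⟨x, hx⟩ := fun x hx => by simp [φ, hx]
    have hinj : Set.InjOn φ S := by
      intro x hx y hy hxy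
      rw [hφ x hx, hφ y hy] at hxy
      exact congrArg Subtype.val (hg hxy)
    let F : V → ℚ := fun x => if hx : (x, a) ∈ E then f ⟨(x, a), hx⟩ else 0
    have hF := hP S φ hinj (fun x hx => by
      rw [hφ x hx]; exact (mem_filter.mp (hgt ⟨x, hx⟩)).2.1) F (by
      intro x hx
      have hHmem : (φ x, a) ∈ H := by
        rw [hφ x hx]; exact (mem_filter.mp (hgt ⟨x, hx⟩)).2.2
      have h0 := congrFun hf ⟨(φ x, a), hHmem⟩
      simp only [Matrix.mulVecLin_apply, Matrix.mulVec, dotProduct, M2, Matrix.of_apply,
        Matrix.transpose_apply, Pi.zero_apply] at h0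
      rw [← h0]
      symm
      rw [← Finset.sum_filter_add_sum_filter_not univ (fun q : E => q.1.2 = a)]
      rw [Finset.sum_eq_zero (s := univ.filter fun q : E => ¬ q.1.2 = a) (by
        intro q hq
        rw [if_neg (mem_filter.mp hq).2, zero_mul]), add_zero]
      refine Finset.sum_bij' (fun q _ => q.1.1)
        (fun y hy => ⟨(y, a), (mem_filter.mp hy).2⟩) ?_ ?_ ?_ ?_ ?_
      · intro q hq
        have : q.1.2 = a := (mem_filter.mp hq).2
        simp only [S, mem_filter, mem_univ, true_and]
        have h : (q.1.1, a) = q.1 := Prod.ext rfl this.symm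
        rw [h]; exact q.2
      · intro y hy
        simp
      · intro q hq
        have : q.1.2 = a := (mem_filter.mp hq).2
        exact Subtype.ext (Prod.ext rfl this.symm)
      · intro y hy; rfl
      · intro q hq
        have : q.1.2 = a := (mem_filter.mp hq).2
        rw [if_pos this]
        have h : (q.1.1, a) = q.1 := Prod.ext rfl this.symm
        have hq2 : (q.1.1, a) ∈ E := by rw [h]; exact q.2
        simp only [F, dif_pos hq2]
        congr 2
        exact Subtype.ext h.symm)
    have hp : p.1.1 ∈ S := by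
      simp only [S, mem_filter, mem_univ, true_and, ha]
      exact p.2
    have := hF p.1.1 hp
    simp only [F] at this
    rw [dif_pos (show (p.1.1, a) ∈ E from p.2)] at this
    exact this
  -- dimension count
  have hr2 : Module.finrank ℚ (LinearMap.range M2.mulVecLin) = E.card := by
    have h := Matrix.rank_transpose M2
    unfold Matrix.rank at h
    rw [← h, LinearMap.finrank_range_of_inj hinj2]
    simp
  have hk2 := LinearMap.finrank_range_add_finrank_ker M2.mulVecLin
  have hk3 := LinearMap.finrank_range_add_finrank_ker M3.mulVecLin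
  have hr3 : Module.finrank ℚ (LinearMap.range M3.mulVecLin) ≤ G.card := by
    have := Submodule.finrank_le (LinearMap.range M3.mulVecLin)
    simpa using this
  have hmap : ∀ f ∈ LinearMap.ker M3.mulVecLin, M1.mulVecLin f ∈ LinearMap.ker M2.mulVecLin := by
    intro f hf
    rw [LinearMap.mem_ker] at hf ⊢
    simp only [Matrix.mulVecLin_apply] at hf ⊢
    rw [Matrix.mulVec_mulVec, hcomm, ← Matrix.mulVec_mulVec, hf, Matrix.mulVec_zero]
  have hle : Module.finrank ℚ (LinearMap.ker M3.mulVecLin) ≤
      Module.finrank ℚ (LinearMap.ker M2.mulVecLin) := by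
    apply LinearMap.finrank_le_finrank_of_injective (f := M1.mulVecLin.restrict hmap)
    intro x y hxy
    have := congrArg Subtype.val hxy
    exact Subtype.ext (hinj1 this)
  simp only [Module.finrank_fintype_fun_eq_card, Fintype.card_coe] at hk2 hk3
  omega

end

end Vale.Agent.P038.H878
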