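import Vale.Agent.P038.H878.Key

namespace Vale.Agent.P038.H878

open Finset Classical

noncomputable section

variable {V : Type*} [Fintype V]

/-- second coordinate one step forward -/
def E (R : V → V → Prop) (B : Finset (V × V)) : Finset (V × V) :=
  univ.filter fun p => ∃ x, R x p.2 ∧ (p.1, x) ∈ B
/-- interior in the second coordinate -/
def I (R : V → V → Prop) (B : Finset (V × V)) : Finset (V × V) :=
  univ.filter fun p => ∀ y, R p.2 y → (p.1, y) ∈ B
/-- column erosion -/
def A (R : V → V → Prop) (B : Finset (V × V)) : Finset (V × V) :=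
  univ.filter fun p => ∀ z, R z p.1 → (z, p.2) ∈ B
/-- column dilation -/
def J (R : V → V → Prop) (B : Finset (V × V)) : Finset (V × V) :=
  univ.filter fun p => ∃ y, R p.1 y ∧ (y, p.2) ∈ B

variable {R : V → V → Prop}

theorem mem_E {B : Finset (V × V)} {a u : V} : (a, u) ∈ E R B ↔ ∃ x, R x u ∧ (a, x) ∈ B := by
  simp [E]
theorem mem_I {B : Finset (V × V)} {a u : V} : (a, u) ∈ I R B ↔ ∀ y, R u y → (a, y) ∈ B := by
  simp [I]
theorem mem_A {B : Finset (V × V)} {a u : V} : (a, u) ∈ A R B ↔ ∀ z, R z a → (z, u) ∈ B := by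
  simp [A]
theorem mem_J {B : Finset (V × V)} {a u : V} : (a, u) ∈ J R B ↔ ∃ y, R a y ∧ (y, u) ∈ B := by
  simp [J]

/-- feasible pairs -/
structure Feas (R : V → V → Prop) (B U : Finset (V × V)) : Prop where
  inc : ∀ a b, R a b → (a, b) ∈ B
  sub : B ⊆ U
  rev : ∀ a b, (a, b) ∈ U → R b a → a = b

/-- inner cost -/
def cI (R : V → V → Prop) (B U : Finset (V × V)) : ℤ :=
  (B.card : ℤ) - (I R B).card + (J R U).card - U.card
/-- outer cost -/
def cO (R : V → V → Prop) (B U : Finset (V × V)) : ℤ :=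
  ((E R B).card : ℤ) - B.card + U.card - (A R U).card

section opt

variable {B U : Finset (V × V)} (hf : Feas R B U)
  (hmin : ∀ B' U', Feas R B' U' → cO R B U ≤ cO R B' U')

include hf hmin

theorem O3 (a : V) (S : Finset V) (hS : ∀ x ∈ S, (a, x) ∈ U) :
    (S.filter fun x => (a, x) ∉ B).card ≤
      (univ.filter fun u => (∃ x ∈ S, R x u) ∧ (a, u) ∉ E R B).card := by
  set s := S.filter fun x => (a, x) ∉ B with hs
  set t := univ.filter fun u => (∃ x ∈ S, R x u) ∧ (a, u) ∉ E R B with ht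
  have hinj : Function.Injective (fun x : V => (a, x)) := fun x y h => (Prod.mk.inj h).2
  let s' : Finset (V × V) := s.image fun x => (a, x)
  let t' : Finset (V × V) := t.image fun x => (a, x)
  have hs' : s'.card = s.card := Finset.card_image_of_injective _ hinj
  have ht' : t'.card = t.card := Finset.card_image_of_injective _ hinj
  have hdis : Disjoint B s' := by
    rw [Finset.disjoint_left]
    intro p hp hp'
    obtain ⟨x, hx, rfl⟩ := Finset.mem_image.mp hp'
    exact (Finset.mem_filter.mp hx).2 hp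
  have hfe : Feas R (B ∪ s') U := by
    refine ⟨fun c d h => Finset.mem_union_left _ (hf.inc c d h), ?_, hf.rev⟩
    apply Finset.union_subset hf.sub
    intro p hp
    obtain ⟨x, hx, rfl⟩ := Finset.mem_image.mp hp
    exact hS x (Finset.mem_filter.mp hx).1
  have hE : E R (B ∪ s') ⊆ E R B ∪ t' := by
    rintro ⟨c, u⟩ hp
    rw [mem_E] at hp
    obtain ⟨x, hxu, hx⟩ := hp
    rcases Finset.mem_union.mp hx with h | h
    · exact Finset.mem_union_left _ (mem_E.mpr ⟨x, hxu, h⟩)
    · obtain ⟨y, hy, hyx⟩ := Finset.mem_image.mp h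
      obtain ⟨rfl, rfl⟩ := Prod.mk.inj hyx
      by_cases hu : (a, u) ∈ E R B
      · exact Finset.mem_union_left _ hu
      · apply Finset.mem_union_right
        apply Finset.mem_image_of_mem
        simp only [ht, mem_filter, mem_univ, true_and]
        exact ⟨⟨y, (Finset.mem_filter.mp hy).1, hxu⟩, hu⟩
  have h1 := Finset.card_le_card hE
  have h2 := Finset.card_union_le (E R B) t'
  have h3 := hmin _ _ hfe
  have h4 : (B ∪ s').card = B.card + s'.card := Finset.card_union_of_disjoint hdis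
  simp only [cO] at h3
  omega

theorem O4 (x : V) (T : Finset V) (hT : ∀ z ∈ T, (z, x) ∉ B) :
    (T.filter fun z => (z, x) ∈ U).card ≤
      (univ.filter fun z => (∃ z' ∈ T, R z' z) ∧ (z, x) ∈ A R U).card := by
  set s := T.filter fun z => (z, x) ∈ U with hs
  set t := univ.filter fun z => (∃ z' ∈ T, R z' z) ∧ (z, x) ∈ A R U with ht
  have hinj : Function.Injective (fun z : V => (z, x)) := fun y z h => (Prod.mk.inj h).1
  let s' : Finset (V × V) := s.image fun z => (z, x)
  let t' : Finset (V × V) := t.image fun z => (z, x)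
  have hs' : s'.card = s.card := Finset.card_image_of_injective _ hinj
  have ht' : t'.card = t.card := Finset.card_image_of_injective _ hinj
  have hsU : s' ⊆ U := by
    intro p hp
    obtain ⟨z, hz, rfl⟩ := Finset.mem_image.mp hp
    exact (Finset.mem_filter.mp hz).2
  have htA : t' ⊆ A R U := by
    intro p hp
    obtain ⟨z, hz, rfl⟩ := Finset.mem_image.mp hp
    exact (Finset.mem_filter.mp hz).2.2
  have hfe : Feas R B (U \ s') := by
    refine ⟨hf.inc, ?_, fun c d h => hf.rev c d (Finset.mem_sdiff.mp h).1⟩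
    intro p hp
    rw [Finset.mem_sdiff]
    refine ⟨hf.sub hp, fun h => ?_⟩
    obtain ⟨z, hz, rfl⟩ := Finset.mem_image.mp h
    exact hT z (Finset.mem_filter.mp hz).1 hp
  have hA : A R U \ t' ⊆ A R (U \ s') := by
    rintro ⟨z, b⟩ hp
    rw [Finset.mem_sdiff] at hp
    rw [mem_A]
    intro z' hz'
    rw [Finset.mem_sdiff]
    refine ⟨mem_A.mp hp.1 z' hz', fun h => hp.2 ?_⟩
    obtain ⟨y, hy, hyz⟩ := Finset.mem_image.mp h
    obtain ⟨rfl, rfl⟩ := Prod.mk.inj hyz
    refine Finset.mem_image.mpr ⟨z, ?_, rfl⟩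
    simp only [ht, mem_filter, mem_univ, true_and]
    exact ⟨⟨y, (Finset.mem_filter.mp hy).1, hz'⟩, hp.1⟩
  have h1 := Finset.card_le_card hA
  have h2 := Finset.card_sdiff_add_card_eq_card htA
  have h3 := hmin _ _ hfe
  have h4 := Finset.card_sdiff_add_card_eq_card hsU
  simp only [cO] at h3
  omega

theorem H1 (a : V) (S : Finset V) (hS : ∀ x ∈ S, (a, x) ∈ A R U) :
    (S.filter fun x => (a, x) ∉ A R B).card ≤
      (univ.filter fun u => (∃ x ∈ S, R x u) ∧ (a, u) ∉ A R (E R B)).card := by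
  have main : ∀ P : Finset V, (∀ z ∈ P, R z a) →
      (S.filter fun x => ∃ z ∈ P, (z, x) ∉ B).card ≤
      (univ.filter fun u => (∃ x ∈ S, R x u) ∧ ∃ z ∈ P, (z, u) ∉ E R B).card := by
    intro P
    induction P using Finset.induction_on with
    | empty => intro _; simp
    | insert w P hw ih =>
      intro hP
      have ih' := ih (fun z hz => hP z (Finset.mem_insert_of_mem hz))
      set S2 := S.filter fun x => ∀ z ∈ P, (z, x) ∈ B with hS2
      have h3 := O3 hf hmin w S2 (fun x hx =>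
        mem_A.mp (hS x (Finset.mem_filter.mp hx).1) w (hP w (Finset.mem_insert_self _ _)))
      have hl : (S.filter fun x => ∃ z ∈ insert w P, (z, x) ∉ B) ⊆
          (S.filter fun x => ∃ z ∈ P, (z, x) ∉ B) ∪ (S2.filter fun x => (w, x) ∉ B) := by
        intro x hx
        rw [Finset.mem_filter] at hx
        obtain ⟨hxS, z, hz, hzx⟩ := hx
        rw [Finset.mem_union, Finset.mem_filter, Finset.mem_filter, hS2, Finset.mem_filter]
        by_cases h : ∃ z ∈ P, (z, x) ∉ B
        · exact Or.inl ⟨hxS, h⟩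
        · right
          push Not at h
          refine ⟨⟨hxS, h⟩, ?_⟩
          rcases Finset.mem_insert.mp hz with rfl | hz
          · exact hzx
          · exact absurd (h z hz) hzx
      have hr : (univ.filter fun u => (∃ x ∈ S, R x u) ∧ ∃ z ∈ P, (z, u) ∉ E R B) ∪
          (univ.filter fun u => (∃ x ∈ S2, R x u) ∧ (w, u) ∉ E R B) ⊆
          (univ.filter fun u => (∃ x ∈ S, R x u) ∧ ∃ z ∈ insert w P, (z, u) ∉ E R B) := by
        intro u hu
        rw [Finset.mem_union, Finset.mem_filter, Finset.mem_filter] at hu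
        rw [Finset.mem_filter]
        rcases hu with ⟨_, h, z, hz, hzu⟩ | ⟨_, ⟨x, hx, hxu⟩, hw⟩
        · exact ⟨mem_univ _, h, z, Finset.mem_insert_of_mem hz, hzu⟩
        · exact ⟨mem_univ _, ⟨x, (Finset.mem_filter.mp hx).1, hxu⟩, w,
            Finset.mem_insert_self _ _, hw⟩
      have hd : Disjoint (univ.filter fun u => (∃ x ∈ S, R x u) ∧ ∃ z ∈ P, (z, u) ∉ E R B)
          (univ.filter fun u => (∃ x ∈ S2, R x u) ∧ (w, u) ∉ E R B) := by
        rw [Finset.disjoint_left]
        intro u hu hu'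
        obtain ⟨_, _, z, hz, hzu⟩ := Finset.mem_filter.mp hu
        obtain ⟨_, ⟨x, hx, hxu⟩, _⟩ := Finset.mem_filter.mp hu'
        exact hzu (mem_E.mpr ⟨x, hxu, (Finset.mem_filter.mp hx).2 z hz⟩)
      have e1 := Finset.card_le_card hl
      have e2 := Finset.card_union_le (S.filter fun x => ∃ z ∈ P, (z, x) ∉ B)
        (S2.filter fun x => (w, x) ∉ B)
      have e3 := Finset.card_le_card hr
      rw [Finset.card_union_of_disjoint hd] at e3
      omega
  refine le_trans (Finset.card_le_card ?_) (le_trans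
    (main (univ.filter fun z => R z a) (fun z hz => (Finset.mem_filter.mp hz).2))
    (Finset.card_le_card ?_))
  · intro x hx
    rw [Finset.mem_filter] at hx ⊢
    refine ⟨hx.1, ?_⟩
    have h := hx.2
    rw [mem_A] at h
    push Not at h
    obtain ⟨z, hz, hzx⟩ := h
    exact ⟨z, by simp [hz], hzx⟩
  · intro u hu
    rw [Finset.mem_filter] at hu ⊢
    obtain ⟨_, h1, z, hz, hzu⟩ := hu
    refine ⟨mem_univ _, h1, fun h => hzu (mem_A.mp h z (Finset.mem_filter.mp hz).2)⟩

theorem H2 (u : V) (S : Finset V) (hS : ∀ z ∈ S, (z, u) ∈ E R U ∧ (z, u) ∉ E R B) :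
    S.card ≤ (univ.filter fun z => (∃ z' ∈ S, R z' z) ∧ (z, u) ∈ E R (A R U)).card := by
  have main : ∀ P : Finset V, (∀ x ∈ P, R x u) →
      (S.filter fun z => ∃ x ∈ P, (z, x) ∈ U).card ≤
      (univ.filter fun z => (∃ z' ∈ S, R z' z) ∧ ∃ x ∈ P, (z, x) ∈ A R U).card := by
    intro P
    induction P using Finset.induction_on with
    | empty => intro _; simp
    | insert w P hw ih =>
      intro hP
      have ih' := ih (fun z hz => hP z (Finset.mem_insert_of_mem hz))
      set S3 := S.filter fun z => ∀ x ∈ P, (z, x) ∉ U with hS3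
      have h4 := O4 hf hmin w S3 (fun z hz h =>
        (hS z (Finset.mem_filter.mp hz).1).2
          (mem_E.mpr ⟨w, hP w (Finset.mem_insert_self _ _), h⟩))
      have hl : (S.filter fun z => ∃ x ∈ insert w P, (z, x) ∈ U) ⊆
          (S.filter fun z => ∃ x ∈ P, (z, x) ∈ U) ∪ (S3.filter fun z => (z, w) ∈ U) := by
        intro z hz
        rw [Finset.mem_filter] at hz
        obtain ⟨hzS, x, hx, hzx⟩ := hz
        rw [Finset.mem_union, Finset.mem_filter, Finset.mem_filter, hS3, Finset.mem_filter]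
        by_cases h : ∃ x ∈ P, (z, x) ∈ U
        · exact Or.inl ⟨hzS, h⟩
        · right
          push Not at h
          refine ⟨⟨hzS, h⟩, ?_⟩
          rcases Finset.mem_insert.mp hx with rfl | hx
          · exact hzx
          · exact absurd hzx (h x hx)
      have hr : (univ.filter fun z => (∃ z' ∈ S, R z' z) ∧ ∃ x ∈ P, (z, x) ∈ A R U) ∪
          (univ.filter fun z => (∃ z' ∈ S3, R z' z) ∧ (z, w) ∈ A R U) ⊆
          (univ.filter fun z => (∃ z' ∈ S, R z' z) ∧ ∃ x ∈ insert w P, (z, x) ∈ A R U) := by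
        intro z hz
        rw [Finset.mem_union, Finset.mem_filter, Finset.mem_filter] at hz
        rw [Finset.mem_filter]
        rcases hz with ⟨_, h, x, hx, hzx⟩ | ⟨_, ⟨z', hz', hzz⟩, hw⟩
        · exact ⟨mem_univ _, h, x, Finset.mem_insert_of_mem hx, hzx⟩
        · exact ⟨mem_univ _, ⟨z', (Finset.mem_filter.mp hz').1, hzz⟩, w,
            Finset.mem_insert_self _ _, hw⟩
      have hd : Disjoint (univ.filter fun z => (∃ z' ∈ S, R z' z) ∧ ∃ x ∈ P, (z, x) ∈ A R U)
          (univ.filter fun z => (∃ z' ∈ S3, R z' z) ∧ (z, w) ∈ A R U) := by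
        rw [Finset.disjoint_left]
        intro z hz hz2
        obtain ⟨_, _, x, hx, hzx⟩ := Finset.mem_filter.mp hz
        obtain ⟨_, ⟨z', hz', hzz⟩, _⟩ := Finset.mem_filter.mp hz2
        exact (Finset.mem_filter.mp hz').2 x hx (mem_A.mp hzx z' hzz)
      have e1 := Finset.card_le_card hl
      have e2 := Finset.card_union_le (S.filter fun z => ∃ x ∈ P, (z, x) ∈ U)
        (S3.filter fun z => (z, w) ∈ U)
      have e3 := Finset.card_le_card hr
      rw [Finset.card_union_of_disjoint hd] at e3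
      omega
  refine le_trans (Finset.card_le_card ?_) (le_trans
    (main (univ.filter fun x => R x u) (fun x hx => (Finset.mem_filter.mp hx).2))
    (Finset.card_le_card ?_))
  · intro z hz
    rw [Finset.mem_filter]
    obtain ⟨x, hx, hzx⟩ := mem_E.mp (hS z hz).1
    exact ⟨hz, x, by simp [hx], hzx⟩
  · intro z hz
    rw [Finset.mem_filter] at hz ⊢
    obtain ⟨_, h1, x, hx, hzx⟩ := hz
    exact ⟨mem_univ _, h1, mem_E.mpr ⟨x, (Finset.mem_filter.mp hx).2, hzx⟩⟩

theorem five :
    (E R U \ E R B).card + (A R U \ A R B).card ≤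
      (U \ B).card + (E R (A R U) \ A R (E R B)).card := by
  apply key R
  · intro a S hS
    have h := H1 hf hmin a S (fun x hx => (Finset.mem_sdiff.mp (hS x hx)).1)
    rw [Finset.filter_true_of_mem (fun x hx => (Finset.mem_sdiff.mp (hS x hx)).2)] at h
    refine h.trans (Finset.card_le_card ?_)
    intro u hu
    rw [Finset.mem_filter] at hu ⊢
    obtain ⟨_, ⟨x, hx, hxu⟩, hn⟩ := hu
    exact ⟨mem_univ _, ⟨x, hx, hxu⟩, Finset.mem_sdiff.mpr
      ⟨mem_E.mpr ⟨x, hxu, (Finset.mem_sdiff.mp (hS x hx)).1⟩, hn⟩⟩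
  · intro u S hS
    have h := H2 hf hmin u S (fun z hz => Finset.mem_sdiff.mp (hS z hz))
    refine h.trans (Finset.card_le_card ?_)
    intro z hz
    rw [Finset.mem_filter] at hz ⊢
    obtain ⟨_, ⟨z', hz', hzz⟩, hm⟩ := hz
    exact ⟨mem_univ _, ⟨z', hz', hzz⟩, Finset.mem_sdiff.mpr
      ⟨hm, fun h => (Finset.mem_sdiff.mp (hS z' hz')).2 (mem_A.mp h z' hzz)⟩⟩
  · intro a x a' u hA haa hxu hE
    rw [Finset.mem_sdiff] at hA hE
    refine ⟨Finset.mem_sdiff.mpr ⟨mem_A.mp hA.1 a' haa, fun h => hE.2 (mem_E.mpr ⟨x, hxu, h⟩)⟩,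
      Finset.mem_sdiff.mpr ⟨mem_E.mpr ⟨x, hxu, hA.1⟩, fun h => hE.2 (mem_A.mp h a' haa)⟩⟩

theorem rot (hrefl : ∀ a, R a a) : ∃ B' U', Feas R B' U' ∧ cI R B' U' ≤ cO R B U := by
  set P := E R (A R U) with hP
  set Q := A R (E R B) with hQ
  let B' := P ∩ Q
  let U' := P ∪ (Q.filter fun p => R p.2 p.1 → p.1 = p.2)
  have hAU : A R U ⊆ U := by
    rintro ⟨a, b⟩ h
    exact mem_A.mp h a (hrefl a)
  have hfe : Feas R B' U' := by
    refine ⟨?_, ?_, ?_⟩
    · intro a b hab
      rw [Finset.mem_inter]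
      constructor
      · rw [hP, mem_E]
        refine ⟨a, hab, mem_A.mpr fun z hz => hf.sub (hf.inc z a hz)⟩
      · rw [hQ, mem_A]
        intro z hz
        exact mem_E.mpr ⟨a, hab, hf.inc z a hz⟩
    · intro p hp
      exact Finset.mem_union_left _ (Finset.mem_inter.mp hp).1
    · intro a b hab hba
      rcases Finset.mem_union.mp hab with h | h
      · rw [hP, mem_E] at h
        obtain ⟨x, hxb, hax⟩ := h
        have h1 : (b, x) ∈ U := mem_A.mp hax b hba
        have h2 : b = x := hf.rev b x h1 hxb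
        subst h2
        exact hf.rev a b (hAU hax) hba
      · exact (Finset.mem_filter.mp h).2 hba
  refine ⟨B', U', hfe, ?_⟩
  have h2 : A R B ⊆ I R B' := by
    rintro ⟨z, b⟩ hzb
    rw [mem_I]
    intro y hy
    rw [Finset.mem_inter]
    constructor
    · rw [hP, mem_E]
      exact ⟨b, hy, mem_A.mpr fun z' hz' => hf.sub (mem_A.mp hzb z' hz')⟩
    · rw [hQ, mem_A]
      intro z' hz'
      exact mem_E.mpr ⟨b, hy, mem_A.mp hzb z' hz'⟩
  have h3 : J R U' ⊆ E R U := by
    rintro ⟨x, b⟩ hxb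
    rw [mem_J] at hxb
    obtain ⟨y, hxy, hyb⟩ := hxb
    rcases Finset.mem_union.mp hyb with h | h
    · rw [hP, mem_E] at h
      obtain ⟨c, hcb, hyc⟩ := h
      exact mem_E.mpr ⟨c, hcb, mem_A.mp hyc x hxy⟩
    · have h' := (Finset.mem_filter.mp h).1
      rw [hQ, mem_A] at h'
      obtain ⟨c, hc, hxc⟩ := mem_E.mp (h' x hxy)
      exact mem_E.mpr ⟨c, hc, hf.sub hxc⟩
  have h4 : B' ∪ (P \ Q) ⊆ U' := by
    apply Finset.union_subset hfe.sub
    intro p hp
    exact Finset.mem_union_left _ (Finset.mem_sdiff.mp hp).1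
  have h4d : Disjoint B' (P \ Q) := by
    rw [Finset.disjoint_left]
    intro p hp hp'
    exact (Finset.mem_sdiff.mp hp').2 (Finset.mem_inter.mp hp).2
  have h5 := five hf hmin
  rw [← hP, ← hQ] at h5
  have hEs : E R B ⊆ E R U := by
    rintro ⟨a, b⟩ h
    obtain ⟨x, hx, hax⟩ := mem_E.mp h
    exact mem_E.mpr ⟨x, hx, hf.sub hax⟩
  have hAs : A R B ⊆ A R U := by
    rintro ⟨a, b⟩ h
    exact mem_A.mpr fun z hz => hf.sub (mem_A.mp h z hz)
  have c1 := Finset.card_le_card h2
  have c2 := Finset.card_le_card h3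
  have c3 := Finset.card_le_card h4
  rw [Finset.card_union_of_disjoint h4d] at c3
  have c4 := Finset.card_sdiff_add_card_eq_card hEs
  have c5 := Finset.card_sdiff_add_card_eq_card hAs
  have c6 := Finset.card_sdiff_add_card_eq_card hf.sub
  simp only [cI, cO]
  omega

end opt

end

end Vale.Agent.P038.H878
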